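import Vale.Agent.P201.FewTerms

namespace Vale.Agent.Results.P201.ThreeTerms

open MonoidAlgebra Vale.Agent.P201

universe u v

theorem result :
    (∀ (K : Type u) (G : Type v) [Field K] [Group G] (α : MonoidAlgebra K G),
      (∀ g : G, IsOfFinOrder g → g = 1) → α ≠ 0 →
      ((∃ (A : ValuationSubring K) (T : Finset G), T.card ≤ 2 ∧
          ∀ a ∈ α.coeff.support,
            (∀ b ∈ α.coeff.support, A.valuation (α.coeff b) ≤ A.valuation (α.coeff a)) → a ∈ T) ∨
       (∃ (ν : AbsoluteValue K ℝ) (a₀ : G),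
          ∑ a ∈ α.coeff.support, ν (α.coeff a) ≤ 2 * ν (α.coeff a₀))) →
      ∀ β : MonoidAlgebra K G, α * β = 0 ∨ β * α = 0 → β = 0) ∧
    (∀ (K : Type u) (G : Type v) [Field K] [Group G],
      (∀ g : G, IsOfFinOrder g → g = 1) →
      ∀ (x : Fin 3 → G) (c : Fin 3 → K), Function.Injective x → (∀ i, c i ≠ 0) →
      ∀ β : MonoidAlgebra K G, β ≠ 0 →
      ((∑ i, single (x i) (c i)) * β = 0 ∨ β * (∑ i, single (x i) (c i)) = 0) →
      (∀ i j, IsIntegral ℤ (c i / c j)) ∧
      (∀ (ι : K →+* ℂ) (i : Fin 3), 2 * ‖ι (c i)‖ < ∑ j, ‖ι (c j)‖)) := by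
  have part1 : ∀ (K : Type u) (G : Type v) [Field K] [Group G] (α : MonoidAlgebra K G),
      (∀ g : G, IsOfFinOrder g → g = 1) → α ≠ 0 →
      ((∃ (A : ValuationSubring K) (T : Finset G), T.card ≤ 2 ∧
          ∀ a ∈ α.coeff.support,
            (∀ b ∈ α.coeff.support, A.valuation (α.coeff b) ≤ A.valuation (α.coeff a)) → a ∈ T) ∨
       (∃ (ν : AbsoluteValue K ℝ) (a₀ : G),
          ∑ a ∈ α.coeff.support, ν (α.coeff a) ≤ 2 * ν (α.coeff a₀))) →
      ∀ β : MonoidAlgebra K G, α * β = 0 ∨ β * α = 0 → β = 0 := by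
    intro K G _ _ α htf hα hcase β h
    classical
    have hne : α.coeff.support.Nonempty := Finsupp.support_nonempty_iff.2 (by simpa using hα)
    have hc : ∀ a ∈ α.coeff.support, α.coeff a ≠ 0 := fun a ha => Finsupp.mem_support_iff.1 ha
    refine regular_of_kernel (fun u f hu hf heq => ?_) h
    rcases hcase with ⟨A, T, hT, hmem⟩ | ⟨ν, a₀, hdom⟩
    · obtain ⟨a₀, ha₀, hmax⟩ :=
        α.coeff.support.exists_max_image (fun a => A.valuation (α.coeff a)) hne
      refine eq_zero_of_valuation htf hu hc A ha₀ hmax hT (fun a ha he => hmem a ha fun b hb => ?_)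
        hf heq
      rw [he]
      exact hmax b hb
    · have ha₀ : a₀ ∈ α.coeff.support := by
        refine Finsupp.mem_support_iff.2 fun h0 => ?_
        rw [h0, map_zero, mul_zero] at hdom
        exact absurd hdom (not_le.2 (Finset.sum_pos (fun a ha => ν.pos (hc a ha)) hne))
      refine eq_zero_of_absoluteValue htf hu hc ν ha₀ ?_ hf heq
      rw [← Finset.add_sum_erase _ _ ha₀] at hdom
      linarith
  refine ⟨part1, fun K G _ _ htf x c hx hc β hβ h => ?_⟩
  classical
  set α : MonoidAlgebra K G := ∑ i, single (x i) (c i) with hα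
  have hcoeff : ∀ i, α.coeff (x i) = c i := by
    intro i
    simp [hα, Finsupp.single_apply, hx.eq_iff]
  have hsupp : α.coeff.support = Finset.univ.image x := by
    ext g
    constructor
    · intro hg
      by_contra hn
      apply Finsupp.mem_support_iff.1 hg
      simp only [Finset.mem_image, Finset.mem_univ, true_and, not_exists] at hn
      simp [hα, Finsupp.single_apply, hn]
    · simp only [Finset.mem_image, Finset.mem_univ, true_and, forall_exists_index]
      rintro i rfl
      simp [hcoeff, hc]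
  have hα0 : α ≠ 0 := fun h0 => hc 0 (by simpa [h0] using (hcoeff 0).symm)
  have hnot : ¬_ := fun hh => hβ (part1 K G α htf hα0 hh β h)
  rw [not_or] at hnot
  refine ⟨fun i j => isIntegral_int_of_forall_valuationSubring fun A => ?_, fun ι i => ?_⟩
  · rw [← A.valuation_le_one_iff, map_div₀]
    refine div_le_one_of_le₀ ?_ zero_le
    by_contra hlt
    refine hnot.1 ⟨A, (Finset.univ.image x).erase (x j), ?_, fun a ha hall => ?_⟩
    · rw [Finset.card_erase_of_mem (by simp), Finset.card_image_of_injective _ hx]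
      simp
    · refine Finset.mem_erase.2 ⟨fun e => hlt ?_, hsupp ▸ ha⟩
      have := hall (x i) (by simp [hsupp])
      rwa [e, hcoeff, hcoeff] at this
  · by_contra hle
    refine hnot.2 ⟨(IsAbsoluteValue.toAbsoluteValue (norm : ℂ → ℝ)).comp ι.injective, x i, ?_⟩
    rw [hsupp, Finset.sum_image hx.injOn]
    simp only [hcoeff]
    exact not_lt.1 hle

end Vale.Agent.Results.P201.ThreeTerms
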